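import Vale.Agent.P352X.SN.Tool2
import Vale.Agent.P352X.SN.Mul
import Vale.Agent.P352X.Api3b

/-!
# P352X, row SCH: the lemma of Schur for forms on square integrable functions
-/

noncomputable section

open MeasureTheory Filter Topology Complex Set
open scoped ComplexConjugate NNReal ENNReal

namespace Vale.Agent.P352X.Sch

open SN (Bd)

variable {X : Type*} [MeasurableSpace X] {m : Measure X}
variable {H : Type*} [NormedAddCommGroup H] [InnerProductSpace ℂ H] [CompleteSpace H]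

/-- bounded linear maps on the square integrable functions -/
structure BL (m : Measure X) (T : (X → ℂ) → H) : Prop where
  lin : ∀ f g (a : ℂ), MemLp f 2 m → MemLp g 2 m → T (fun x => f x + a * g x) = T f + a • T g
  bd : ∃ C : ℝ, ∀ f, MemLp f 2 m → ‖T f‖ ^ 2 ≤ C * ∫ x, ‖f x‖ ^ 2 ∂m

lemma l2_mul {h f : X → ℂ} (hh : Bd h) (hf : MemLp f 2 m) : MemLp (fun x => h x * f x) 2 m :=
  hh.memLp_smul hf

lemma l2_lin {f g : X → ℂ} (a : ℂ) (hf : MemLp f 2 m) (hg : MemLp g 2 m) :
    MemLp (fun x => f x + a * g x) 2 m := hf.add (hg.const_mul a)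

/-- square integrable functions are determined by their scalar products -/
lemma l2_ext {u v : X → ℂ} (hu : MemLp u 2 m) (hv : MemLp v 2 m)
    (h : ∀ f, MemLp f 2 m → ∫ x, conj (f x) * u x ∂m = ∫ x, conj (f x) * v x ∂m) :
    u =ᵐ[m] v := by
  rw [← MemLp.toLp_eq_toLp_iff hu hv]
  refine ext_inner_left ℂ fun w => ?_
  rw [← Lp.toLp_coeFn w (Lp.memLp w), SN.l2_inner, SN.l2_inner, h _ (Lp.memLp w)]

namespace BL

variable {T : (X → ℂ) → H}

omit [CompleteSpace H] in
lemma congr (hT : BL m T) {f g : X → ℂ} (hf : MemLp f 2 m) (h : f =ᵐ[m] g) : T f = T g := by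
  have hg := hf.ae_eq h
  obtain ⟨C, hC⟩ := hT.bd
  have h1 := hC _ (l2_lin (-1) hf hg)
  rw [hT.lin f g _ hf hg, integral_congr_ae (g := fun _ => (0 : ℝ))
    (by filter_upwards [h] with x hx; simp [hx])] at h1
  have h2 : ‖T f + (-1 : ℂ) • T g‖ = 0 := by
    simpa using le_antisymm (by simpa using h1) (sq_nonneg ‖T f + (-1 : ℂ) • T g‖)
  rwa [norm_eq_zero, neg_one_smul, add_neg_eq_zero] at h2

omit [CompleteSpace H] in
lemma zero (hT : BL m T) : T (fun _ => 0) = 0 := by
  have := hT.lin (fun _ => 0) (fun _ => 0) 1 MemLp.zero MemLp.zero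
  simpa using this

omit [CompleteSpace H] in
lemma smul (hT : BL m T) (a : ℂ) {f : X → ℂ} (hf : MemLp f 2 m) :
    T (fun x => a * f x) = a • T f := by
  simpa [hT.zero] using hT.lin (fun _ => 0) f a MemLp.zero hf

omit [CompleteSpace H] in
lemma add (hT : BL m T) {f g : X → ℂ} (hf : MemLp f 2 m) (hg : MemLp g 2 m) :
    T (fun x => f x + g x) = T f + T g := by
  simpa using hT.lin f g 1 hf hg

/-- the operator on `L²` -/
def op (hT : BL m T) : Lp ℂ 2 m →L[ℂ] H :=
  LinearMap.mkContinuousOfExistsBound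
    { toFun := fun f => T f
      map_add' := fun f g => by
        rw [hT.congr (Lp.memLp _) (Lp.coeFn_add f g)]
        exact hT.add (Lp.memLp f) (Lp.memLp g)
      map_smul' := fun a f => by
        rw [hT.congr (Lp.memLp _) (Lp.coeFn_smul a f)]
        exact hT.smul a (Lp.memLp f) } (by
    obtain ⟨C, hC⟩ := hT.bd
    refine ⟨√C, fun f => ?_⟩
    have h := hC f (Lp.memLp f)
    rw [← SN.l2_norm_sq (Lp.memLp f), Lp.toLp_coeFn] at h
    refine (Real.le_sqrt_of_sq_le h).trans ?_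
    rw [Real.sqrt_mul' _ (sq_nonneg _), Real.sqrt_sq (norm_nonneg _)])

omit [CompleteSpace H] in
lemma op_toLp (hT : BL m T) {f : X → ℂ} (hf : MemLp f 2 m) : hT.op (hf.toLp f) = T f :=
  hT.congr (Lp.memLp _) hf.coeFn_toLp

/-- **Riesz representation** -/
theorem riesz (hT : BL m T) (v : H) : ∃ u, MemLp u 2 m ∧ Measurable u ∧
    ∀ f, MemLp f 2 m → inner ℂ (T f) v = ∫ x, conj (f x) * u x ∂m := by
  set w := ContinuousLinearMap.adjoint hT.op v
  have hw := Lp.aestronglyMeasurable w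
  refine ⟨hw.mk w, (Lp.memLp w).ae_eq hw.ae_eq_mk, hw.stronglyMeasurable_mk.measurable,
    fun f hf => ?_⟩
  rw [← hT.op_toLp hf, ← ContinuousLinearMap.adjoint_inner_right, ← Lp.toLp_coeFn
    (ContinuousLinearMap.adjoint hT.op v) (Lp.memLp w), SN.l2_inner]
  exact integral_congr_ae (by filter_upwards [hw.ae_eq_mk] with x hx; rw [← hx])

end BL

/-- **Schur's lemma**: a bounded form on `L²` that commutes with the multiplications and with an
ergodic family of maps is a multiple of the scalar product. -/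
theorem schur {β : (X → ℂ) → (X → ℂ) → ℂ} {ι : Type*} {g : ι → X ≃ᵐ X} {J : ι → ℝ}
    (hg : ∀ i, Sc (g i) m m (J i))
    (erg : ∀ b : X → ℂ, Measurable b → (∀ i, (fun x => b (g i x)) =ᵐ[m] b) →
      ∃ c, b =ᵐ[m] fun _ => c)
    {f0 : X → ℂ} (h0 : MemLp f0 2 m) (h0' : Bd f0) (h0'' : ∀ x, f0 x ≠ 0)
    (rep : ∀ f, MemLp f 2 m → ∃ u, MemLp u 2 m ∧ Measurable u ∧
      ∀ f', MemLp f' 2 m → β f' f = ∫ x, conj (f' x) * u x ∂m)
    (cg : ∀ f' f f1, MemLp f' 2 m → MemLp f 2 m → f =ᵐ[m] f1 → β f' f = β f' f1)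
    (mul : ∀ h f' f, Bd h → MemLp f' 2 m → MemLp f 2 m →
      β f' (fun x => h x * f x) = β (fun x => conj (h x) * f' x) f)
    (cov : ∀ i f' f, MemLp f' 2 m → MemLp f 2 m →
      β (fun x => f' (g i x)) (fun x => f (g i x)) = J i * β f' f) :
    ∃ c : ℂ, ∀ f' f, MemLp f' 2 m → MemLp f 2 m → β f' f = c * ∫ x, conj (f' x) * f x ∂m := by
  choose! u hu hm hβ using rep
  have m1 : ∀ h f, Bd h → MemLp f 2 m → u (fun x => h x * f x) =ᵐ[m] fun x => h x * u f x := by
    intro h f hh hf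
    refine l2_ext (hu _ (l2_mul hh hf)) (l2_mul hh (hu f hf)) fun f' hf' => ?_
    rw [← hβ _ (l2_mul hh hf) f' hf', mul h f' f hh hf' hf, hβ f hf _ (l2_mul hh.cj hf')]
    simp only [map_mul, conj_conj, mul_assoc, mul_left_comm]
  have m2 : ∀ i f, MemLp f 2 m → u (fun x => f (g i x)) =ᵐ[m] fun x => u f (g i x) := by
    intro i f hf
    refine l2_ext (hu _ ((hg i).memLp.2 hf)) ((hg i).memLp.2 (hu f hf)) fun f' hf' => ?_
    have h2 := ((hg i).symm' rfl).memLp.2 hf'
    have h1 := cov i _ f h2 hf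
    rw [hβ f hf _ h2, ← real_smul, ← (hg i).integral] at h1
    simp only [MeasurableEquiv.symm_apply_apply] at h1
    rw [← hβ _ ((hg i).memLp.2 hf) f' hf', h1]
  have m3 : ∀ f, Bd f → MemLp f 2 m → ∀ᵐ x ∂m, u f x = u f0 x / f0 x * f x := by
    intro f hb hf
    have h1 := m1 f f0 hb h0
    have h2 := m1 f0 f h0' hf
    rw [show (fun x => f0 x * f x) = fun x => f x * f0 x from funext fun x => mul_comm _ _] at h2
    filter_upwards [h1, h2] with x h1 h2
    rw [h1] at h2
    field_simp [h0'' x]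
    linear_combination -h2
  obtain ⟨c, hc⟩ := erg (fun x => u f0 x / f0 x) ((hm f0 h0).div h0'.1) fun i => by
    filter_upwards [m2 i f0 h0, m3 _ (h0'.comp (g i).measurable) ((hg i).memLp.2 h0)] with x h1 h2
    rw [← h1, h2, mul_div_assoc, div_self (h0'' _), mul_one]
  have m4 : ∀ f, Measurable f → MemLp f 2 m → u f =ᵐ[m] fun x => c * f x := by
    intro f hf hf'
    have h1 : ∀ n : ℕ, ∀ᵐ x ∂m, ‖f x‖ ≤ n → u f x = c * f x := by
      intro n
      have hb := Bd.ind (SN.Calc.trunc_set hf n)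
      have hb' : Bd fun x => {p | ‖f p‖ ≤ n}.indicator (fun _ => (1 : ℂ)) x * f x := by
        simpa only [mul_comm, SN.Calc.mul_ind] using SN.Calc.trunc_bd hf n
      filter_upwards [m1 _ f hb hf', m3 _ hb' (l2_mul hb hf'), hc] with x h1 h2 h3 h4
      rw [h1, h3, indicator_of_mem (show x ∈ {p | ‖f p‖ ≤ n} from h4)] at h2
      simpa using h2
    filter_upwards [ae_all_iff.2 h1] with x hx
    exact hx _ (Nat.le_ceil _)
  refine ⟨c, fun f' f hf' hf => ?_⟩
  have e := hf.1.ae_eq_mk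
  have hk := hf.ae_eq e
  rw [cg f' f _ hf' hf e, hβ _ hk f' hf', ← integral_const_mul]
  refine integral_congr_ae ?_
  filter_upwards [m4 _ hf.1.stronglyMeasurable_mk.measurable hk, e] with x h1 h2
  rw [h1, h2]
  ring

end Vale.Agent.P352X.Sch

end
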