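import Vale.Agent.P352X.R.SCH.Tht
import Vale.Agent.P352X.R.KER
import Vale.Agent.P352X.R.FAR
import Vale.Agent.P352X.Api1C
import Vale.Agent.P352X.Api2
import Vale.Agent.P352X.Api3
import Mathlib.Analysis.SpecialFunctions.JapaneseBracket

/-!
# P352X, row SCH: one vector `Tht` in the domain of `Kt`
-/

noncomputable section

open MeasureTheory Filter Topology Complex Set
open scoped ComplexConjugate SchwartzMap Convolution

namespace Vale.Agent.P352X.Sch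

open Vale.Agent.P352 Vale.Agent.P352.GF Vale.Agent.P352.BW Vale.Agent.P352.H755
open SN (Bd)
open UniformSpace (Completion)

lemma fn1_of_tst {φ : ℝ → ℝ} (h : Tst φ) : Fn1 φ := by
  have := memLp_mul_ft1 (sch (cx φ)) (Ioi 0)
  rwa [Ap.coe_sch (f := cx φ) (Ap.tst_sw h)] at this

/-- the weight of the wave functions -/
def wG (p : V) : ℝ := (1 + ‖p‖) ^ (-3 : ℝ)

lemma wG_l2 : MemLp wG 2 (volume.restrict Fc) := by
  refine MemLp.restrict _ ?_
  have hm : Measurable wG := by unfold wG; fun_prop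
  rw [memLp_two_iff_integrable_sq hm.aestronglyMeasurable]
  refine (integrable_one_add_norm (E := V) (r := 6) (by simp; norm_num)).congr
    (.of_forall fun p => ?_)
  simp only [wG]
  rw [← Real.rpow_natCast, ← Real.rpow_mul (by positivity)]
  norm_num

lemma mu_ft_le : ∃ (m : ℕ) (C : ℝ), 0 ≤ C ∧ ∀ (f : Sch) (p : V),
    ‖(mu p : ℂ) * ft (ev f) p‖ ≤ C * sn m f * wG p := by
  obtain ⟨m, C, h0, hC⟩ := ft_decay 5
  refine ⟨m, 4 * C, by positivity, fun f p => ?_⟩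
  have h1 : 0 < 1 + ‖p‖ := by positivity
  rw [wG, Real.rpow_neg h1.le, ← div_eq_mul_inv, le_div_iff₀ (by positivity), norm_mul, norm_real,
    Real.norm_eq_abs, show (3 : ℝ) = (3 : ℕ) by norm_num, Real.rpow_natCast]
  have h2 : |mu p| ≤ 4 * (1 + ‖p‖) ^ 2 :=
    (abs_mdot_le p p).trans (by nlinarith [norm_nonneg p])
  calc _ ≤ 4 * (1 + ‖p‖) ^ 2 * ‖ft (ev f) p‖ * (1 + ‖p‖) ^ 3 := by gcongr
    _ = 4 * ((1 + ‖p‖) ^ 5 * ‖ft (ev f) p‖) := by ring
    _ ≤ _ := by linarith [hC f p]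

variable {D : Type*} [NormedAddCommGroup D] [InnerProductSpace ℂ D] {c : Ctx D}
  {ell : (V → ℂ) → Completion D} {c0 : ℝ} {φ η : ℝ → ℝ}

lemma Th_eq (g : GRP c) {f : Fn} (hf : IsTest f) : c.Th f =
    (2 : ℂ) • c.Tv (hk va vb f) - ∑ i, c.Tv (hk (ex i) (ex i) f) := by
  simp only [Ctx.Th, Ctx.Tv, g.trace f _ hf, Completion.coe_sub, Completion.coe_smul,
    Fin.sum_univ_two, Completion.coe_add]

/-- the trace on slabs is in the domain of `Kt` -/
theorem th_slab (g : GRP c) (kd : KD c) {b1 b2 : ℝ} (h : b2 < 0 ∨ 0 < b1) :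
    ∃ (m : ℕ) (C : ℝ), 0 ≤ C ∧ ∀ f : Sch, tsupport f ⊆ {z | b1 ≤ be z ∧ be z ≤ b2} →
      Dm c.SK (c.Th (ev f)) ∧ ‖gen c.SK (c.Th (ev f))‖ ≤ C * sn m f ∧
      Dm c.Sk (c.Th (ev f)) ∧ ‖gen c.Sk (c.Th (ev f))‖ ≤ C * sn m f := by
  obtain ⟨m, C, hC⟩ := kd.slab b1 b2 h
  refine ⟨m, |C| * (2 * ‖va‖ * ‖vb‖ + ∑ i, ‖ex i‖ * ‖ex i‖), by positivity, fun f hf => ?_⟩
  have h1 := ((hC va vb f hf).1.gn.smul 2).sub
    (Gn.sum Finset.univ fun i _ => (hC (ex i) (ex i) f hf).1.gn)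
  rw [← Th_eq g ⟨f, rfl⟩] at h1
  have h2 : ‖gen c.SK (c.Th (ev f))‖ ≤
      |C| * (2 * ‖va‖ * ‖vb‖ + ∑ i, ‖ex i‖ * ‖ex i‖) * sn m f := by
    have a : ∀ h k, ‖gen c.SK (c.Tv (hk h k (ev f)))‖ ≤ |C| * (‖h‖ * ‖k‖) * sn m f := fun h k =>
      (hC h k f hf).2.2.1.trans (by
        rw [mul_assoc C]
        gcongr
        exacts [Lie.sn_nonneg _ _, le_abs_self C])
    rw [h1.gen_eq]
    refine (norm_sub_le _ _).trans ?_
    rw [norm_smul, Fin.sum_univ_two, Fin.sum_univ_two, Complex.norm_ofNat]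
    linarith [a va vb, a (ex 0) (ex 0), a (ex 1) (ex 1), norm_add_le
      (gen c.SK (c.Tv (hk (ex 0) (ex 0) (ev f)))) (gen c.SK (c.Tv (hk (ex 1) (ex 1) (ev f))))]
  exact ⟨h1.dm, h2, (((kt_thm c).dom _).1 h1.dm).1, ((kt_thm c).split _ h1.dm).2.trans h2⟩

/-- the pieces of the profile -/
def pcs (φ η : ℝ → ℝ) (s t : ℝ) : ℝ := φ t * η (s - t)

lemma tst_pcs (hφ : Tst φ) (hη : Tst η) (s : ℝ) : Tst (pcs φ η s) :=
  Ap.cs_mul_r hφ (hη.1.comp (contDiff_const.sub contDiff_id))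

lemma sn_pcs {g : P3 → ℝ} (hg : Tst g) (hφ : Tst φ) (hη : Tst η) (m : ℕ) :
    ∃ B, ∀ s, sn m (sch (pr g (pcs φ η s))) ≤ B := by
  refine ⟨2 ^ m * 2 ^ (m + 0) * ((1 + ‖-beL‖) ^ m * (2 ^ m * ST.sn ℝ ℂ m (sch (cx η)))) *
    ST.sn V ℂ (m + 0) (sch (pr g φ)), fun s => ?_⟩
  have h1 := (((ST.bd_sch (sch (cx η)) (k := 0) (Nat.zero_le m) le_rfl).add_const s).comp'
    (-beL)).mono (w' := fun z => (1 + ‖-beL‖) ^ m * (2 ^ m * ST.sn ℝ ℂ m (sch (cx η))) *
      (1 + ‖z‖) ^ 0) fun z => by simp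
  rw [sn_eq]
  refine ST.sn_mul h1 (sch (pr g φ)) _ fun z => ?_
  rw [Ap.sch_dc (Far.dc_pr hg (tst_pcs hφ hη s)), Ap.sch_dc (Far.dc_pr hg hφ),
    Ap.sch_dc (f := cx η) (Ap.dc_cx hη)]
  simp only [pr, pcs, cx, neg_apply, beL_apply, neg_add_eq_sub]
  push_cast
  ring

lemma int_pcs (hφ : Tst φ) (hη : Tst η) (a κ : ℝ) :
    ∫ s : ℝ, cexp (I * (s * -κ : ℝ)) * ft1 (cx (pcs φ η s)) a =
      ft1 (cx φ) (a - κ) * ft1 (cx η) (-κ) := by
  have i : ∀ {u : ℝ → ℝ}, Tst u → ∀ k : ℝ,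
      Integrable fun t : ℝ => cx u t * cexp (I * (t * k : ℝ)) := fun hu k =>
    (Ap.cs_int (Ap.dc_cx hu)).mul_bdd (c := 1) (by fun_prop)
      (.of_forall fun t => (FT.norm_exp _).le)
  have h := integral_convolution (ContinuousLinearMap.mul ℝ ℂ) (i hφ (a - κ)) (i hη (-κ))
  refine Eq.trans (integral_congr_ae (.of_forall fun s => ?_)) h
  simp only [convolution_def, ft1, ← integral_const_mul, ContinuousLinearMap.mul_apply', cx, pcs]
  refine integral_congr_ae (.of_forall fun t => ?_)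
  simp only []
  rw [mul_mul_mul_comm, ← Complex.exp_add, mul_left_comm, ← Complex.exp_add]
  push_cast
  ring_nf

/-- `q^2 / 2p` -/
def kap (k : P3) : ℝ := d2 k.2 k.2 / (2 * k.1)

lemma kap_meas : Measurable kap := by unfold kap; fun_prop

lemma meas_pcs (hφ : Tst φ) (hη : Tst η) :
    Measurable fun x : ℝ × ℝ => ft1 (cx (pcs φ η x.1)) x.2 := by
  have h1 := hφ.1.continuous
  have h2 := hη.1.continuous
  have h : Continuous fun y : (ℝ × ℝ) × ℝ =>
      cx (pcs φ η y.1.1) y.2 * cexp (I * (y.2 * y.1.2 : ℝ)) := by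
    simp only [cx, pcs]
    fun_prop
  exact (h.stronglyMeasurable.integral_prod_right' (ν := volume)).measurable

lemma bd_ft1 (hφ : Tst φ) : Bd (ft1 (cx φ)) :=
  ⟨(cont_ft1 (Ap.cs_int (Ap.dc_cx hφ))).measurable, _, norm_ft1_le _⟩

/-- the profile in the momenta `p`, `q` -/
def gam (u : P3 → ℝ) (η : ℝ → ℝ) (k : P3) : ℂ := ft1 (cx η) (-kap k) * ft3 (cx u) k

lemma gam_l2 {u : P3 → ℝ} (hu : Tst u) (hη : Tst η) : MemLp (gam u η) 2 m3 := by
  have := memLp_ft3_m3 (sch (cx u))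
  rw [Ap.coe_sch (f := cx u) (Ap.tst_sw hu)] at this
  exact l2_mul ((bd_ft1 hη).comp kap_meas.neg) this

lemma pcs_dom (g : GRP c) (kd : KD c) (hφ : Tst φ) {δ R : ℝ} (hδ : 0 < δ)
    (hd : ∀ t, |t| < δ → φ t = 0) (hR : ∀ t, R ≤ |t| → φ t = 0) (hη : Tst η)
    (hη' : ∀ t, δ ≤ |t| → η t = 0) {u : P3 → ℝ} (hu : Tst u) : ∃ K, 0 ≤ K ∧ ∀ s,
      Dm c.Sk (c.Th (pr u (pcs φ η s))) ∧ ‖gen c.Sk (c.Th (pr u (pcs φ η s)))‖ ≤ K := by
  obtain ⟨m1, C1, p1, h1⟩ := th_slab g kd (b1 := δ) (b2 := R) (.inr hδ)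
  obtain ⟨m2, C2, p2, h2⟩ := th_slab g kd (b1 := -R) (b2 := -δ) (.inl (neg_neg_of_pos hδ))
  obtain ⟨B1, k1⟩ := sn_pcs hu hφ hη m1
  obtain ⟨B2, k2⟩ := sn_pcs hu hφ hη m2
  refine ⟨|C1 * B1| + |C2 * B2|, by positivity, fun s => ?_⟩
  have hf := Ap.dc_sw (Far.dc_pr hu (tst_pcs hφ hη s))
  have a : ∀ z, pr u (pcs φ η s) z ≠ 0 → δ ≤ |be z| ∧ |be z| < R ∧ |s - be z| < δ := fun z hz =>
    ⟨not_lt.1 fun h => hz (by simp [pr, pcs, hd _ h]), not_le.1 fun h => hz (by simp [pr, pcs, hR _ h]),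
      not_le.1 fun h => hz (by simp [pr, pcs, hη' _ h])⟩
  have cl : ∀ b1 b2 : ℝ, IsClosed {z | b1 ≤ be z ∧ be z ≤ b2} := fun b1 b2 =>
    isClosed_Icc.preimage cont_be
  rw [← Ap.ev_sch hf]
  rcases le_total 0 s with hs | hs
  · obtain ⟨-, -, e1, e2⟩ := h1 (sch _) ((Ap.tsupport_sch hf).le.trans (Ap.tsupp_sub (cl _ _)
      fun z hz => by
        obtain ⟨a1, a2, a3⟩ := a z hz
        rw [abs_lt] at a2 a3
        exact ⟨(le_abs'.1 a1).resolve_left (by linarith), a2.2.le⟩))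
    exact ⟨e1, e2.trans (by
      linarith [mul_le_mul_of_nonneg_left (k1 s) p1, le_abs_self (C1 * B1), abs_nonneg (C2 * B2)])⟩
  · obtain ⟨-, -, e1, e2⟩ := h2 (sch _) ((Ap.tsupport_sch hf).le.trans (Ap.tsupp_sub (cl _ _)
      fun z hz => by
        obtain ⟨a1, a2, a3⟩ := a z hz
        rw [abs_lt] at a2 a3
        exact ⟨a2.1.le, (le_abs'.1 a1).resolve_right (by linarith)⟩))
    exact ⟨e1, e2.trans (by
      linarith [mul_le_mul_of_nonneg_left (k2 s) p2, le_abs_self (C2 * B2), abs_nonneg (C1 * B1)])⟩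

/-- **superposition** -/
theorem dm_Tht (g : GRP c) (kd : KD c) (he : Ell c ell c0) (hφ : Tst φ) {δ R : ℝ} (hδ : 0 < δ)
    (hd : ∀ t, |t| < δ → φ t = 0) (hR : ∀ t, R ≤ |t| → φ t = 0) (hη : Tst η)
    (hη' : ∀ t, δ ≤ |t| → η t = 0) {u : P3 → ℝ} (hu : Tst u) :
    Dm c.Sk (Tht ell (gam u η) φ) := by
  obtain ⟨K, K0, hK⟩ := pcs_dom g kd hφ hδ hd hR hη hη' hu
  obtain ⟨m, C, C0, hC⟩ := mu_ft_le
  obtain ⟨B, hB⟩ := sn_pcs hu hφ hη m
  have ug := (kt_thm c).ugk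
  set A := Icc (-(R + δ)) (R + δ)
  set V0 := Tht ell (gam u η) φ
  set e : ℝ → P3 → ℂ := fun s k => cexp (I * (s * -kap k : ℝ))
  have eb : ∀ s, Bd (e s) := fun s => Bd.expI (kap_meas.neg.const_mul s)
  have en : ∀ s k, ‖e s k‖ ≤ 1 := fun s k => (FT.norm_exp _).le
  have ft_ : ∀ s, IsTest (pr u (pcs φ η s)) := fun s =>
    Ap.dc_sw (Far.dc_pr hu (tst_pcs hφ hη s))
  set ψ : ℝ → V → ℂ := fun s p => e s (pm p) * ((mu p : ℝ) * ft (pr u (pcs φ η s)) p)
  set v : ℝ → Completion D := fun s =>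
    c.bt.Phi (fun p => e s (pm p)) (c.Th (pr u (pcs φ η s)))
  have hv : ∀ s, v s = (-3 : ℂ) • ell (ψ s) := fun s => by
    simp only [v]
    rw [he.th _ (ft_ s), map_smul, he.phi _ _ ((eb s).comp meas_pm) (memLp_mu_ft (ft_ s) _)]
  have lip : ∀ s t, ‖c.Sk t (v s) - v s‖ ≤ 1 * (K * |t|) := fun s t => by
    rw [(cm_Sk t).phi (eb s), ← map_sub]
    refine (c.bt.norm_le ((eb s).comp meas_pm) zero_le_one _ (.of_forall fun p => en s _)).trans ?_
    gcongr
    exact (ug.lip (hK s).1.gn t).trans (by gcongr; exact (hK s).2)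
  have hψ : ∀ p ∈ Fc, psi (gam u η) φ p = ∫ s in A, ψ s p := fun p hp => by
    rw [setIntegral_eq_integral_of_forall_compl_eq_zero fun s hs => ?_]
    · have h1 := int_pcs hφ hη (al p) (kap (pm p))
      rw [psi, al_eq_mu ((mem_Fc p).1 hp).1.ne']
      simp only [ψ, e, ft_pr]
      rw [integral_congr_ae (g := fun s => (mu p * ft3 (cx u) (pm p)) *
        (cexp (I * (s * -kap (pm p) : ℝ)) * ft1 (cx (pcs φ η s)) (al p)))
        (.of_forall fun s => by simp only []; ring), integral_const_mul, h1]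
      simp only [gam, kap, pm_1, pm_2]
      ring
    · have : pcs φ η s = fun _ => 0 := funext fun t => by
        by_cases h1 : R ≤ |t|
        · simp [pcs, hR t h1]
        · have h2 : R + δ < |s| := not_le.1 fun k => hs (abs_le.1 k)
          simp [pcs, hη' (s - t) (by linarith [abs_sub_abs_le_abs_sub s t])]
      simp [ψ, ft_pr, this, ft1, cx]
  have weak : ∀ w, inner ℂ V0 w = ∫ s in A, inner ℂ (v s) w := fun w => by
    obtain ⟨b, b1, b2, b3⟩ := (bl_ell he).riesz w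
    have l2 : ∀ s, MemLp (ψ s) 2 (volume.restrict Fc) := fun s =>
      l2_mul ((eb s).comp meas_pm) (memLp_mu_ft (ft_ s) _)
    simp only [V0, Tht_eq, hv, inner_smul_left, integral_const_mul, b3 _ (l2 _),
      b3 _ (psi_l2 (gam_l2 hu hη) (fn1_of_tst hφ))]
    congr 1
    rw [← integral_integral_swap]
    · refine setIntegral_congr_fun meas_Fc fun p hp => ?_
      simp only [hψ p hp, ← integral_conj, integral_mul_const]
    · have m1 := (meas_pcs hφ hη).comp (measurable_snd.prodMk (meas_al.comp measurable_fst) :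
        Measurable fun x : V × ℝ => (x.2, al x.1))
      have m2 := (cont_ft3 (g := cx u) (Ap.cs_int (Ap.dc_cx hu))).measurable
      have m4 := kap_meas
      refine (((wG_l2.integrable_mul b1.norm).const_mul (1 * (C * B))).mul_prod
        (integrable_const (1 : ℝ))).mono' (Measurable.aestronglyMeasurable ?_)
        (.of_forall fun x => ?_)
      · simp only [ψ, e, ft_pr, Function.uncurry_def]
        exact (continuous_conj.measurable.comp ((by fun_prop : Measurable _).mul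
          ((by fun_prop : Measurable _).mul ((by fun_prop : Measurable _).mul m1)))).mul
          (b2.comp measurable_fst)
      · have h1 := hC (sch (pr u (pcs φ η x.2))) x.1
        rw [Ap.ev_sch (ft_ _)] at h1
        have h2 : 0 ≤ wG x.1 := by unfold wG; positivity
        have h3 := mul_le_mul (en x.2 (pm x.1))
          (h1.trans (by gcongr; exact hB _ : _ ≤ C * B * wG x.1)) (norm_nonneg _) zero_le_one
        simp only [Function.uncurry_def, norm_mul (conj _), norm_conj, mul_one, Pi.mul_apply]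
        rw [norm_mul]
        exact (mul_le_mul_of_nonneg_right h3 (norm_nonneg _)).trans_eq (by ring)
  refine (ug.dm_of_lip (K := K * volume.real A) (Eventually.frequently
    (.of_forall fun t => ?_))).1
  set z := c.Sk t V0 - V0
  have h1 : ∀ x, inner ℂ x (c.Sk (-t) z - z) = inner ℂ (c.Sk t x - x) z := fun x => by
    rw [inner_sub_right, inner_sub_left, ug.adj', neg_neg]
  have h2 := weak (c.Sk (-t) z - z)
  simp only [h1] at h2
  have h3 := norm_setIntegral_le_of_norm_le_const (f := fun s => inner ℂ (c.Sk t (v s) - v s) z)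
    (μ := volume) (s := A) (C := 1 * (K * |t|) * ‖z‖) isCompact_Icc.measure_lt_top fun s _ =>
      (norm_inner_le_norm _ _).trans (by gcongr; exact lip s t)
  rw [← h2, inner_self_eq_norm_sq_to_K, norm_pow, RCLike.norm_ofReal, abs_norm] at h3
  rcases (norm_nonneg z).eq_or_lt with h4 | h4
  · rw [← h4]
    positivity
  · exact le_of_mul_le_mul_right (by linarith) h4

lemma pos_of_ne {γ : P3 → ℂ} (hγ : MemLp γ 2 m3) {U : Set P3} (hU : IsOpen U)
    (hne : (U ∩ Pp).Nonempty) (h : ∀ k ∈ U ∩ Pp, γ k ≠ 0) : 0 < ∫ k, ‖γ k‖ ^ 2 ∂m3 := by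
  rw [integral_pos_iff_support_of_nonneg (fun _ => sq_nonneg _) (SN.memLp_sq hγ), pos_iff_ne_zero]
  intro h0
  have h1 := ac_m3 (measure_mono_null (s := U ∩ Pp) (fun k hk => by simpa using h k hk) h0)
  rw [Measure.restrict_apply' meas_Pp, inter_assoc, inter_self] at h1
  exact ((hU.inter isOpen_Pp).measure_pos _ hne).ne' h1

/-- **one vector in the domain** -/
theorem exists_dm (g : GRP c) (kd : KD c) (he : Ell c ell c0) (hφ : D0 φ) :
    ∃ γ, MemLp γ 2 m3 ∧ 0 < ∫ k, ‖γ k‖ ^ 2 ∂m3 ∧ Dm c.Sk (Tht ell γ φ) := by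
  obtain ⟨δ, hδ, hd⟩ := Metric.isOpen_iff.1 (isClosed_tsupport φ).isOpen_compl 0 hφ.2
  obtain ⟨R, hR⟩ := hφ.1.2.isCompact.isBounded.subset_ball 0
  obtain ⟨η, hη, s1, -, i1⟩ := Ap.ex_rho (volume : Measure ℝ) (Metric.ball_mem_nhds 0 hδ)
  obtain ⟨u, hu, -, -, i2⟩ := Ap.ex_rho (volume : Measure P3) (x := 0) univ_mem
  have c1 := cont_ft1 (φ := cx η) (Ap.cs_int (Ap.dc_cx hη))
  have c2 := cont_ft3 (g := cx u) (Ap.cs_int (Ap.dc_cx hu))
  refine ⟨gam u η, gam_l2 hu hη, ?_, dm_Tht g kd he hφ.1 hδ (R := R)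
    (fun t ht => image_eq_zero_of_notMem_tsupport (hd (by simpa using ht)))
    (fun t ht => image_eq_zero_of_notMem_tsupport fun k => by simpa [ht.not_gt] using hR k) hη
    (fun t ht => image_eq_zero_of_notMem_tsupport fun k => by simpa [ht.not_gt] using s1 k) hu⟩
  have e : ∀ᶠ t in 𝓝 (0 : ℝ), ft3 (cx u) (t, 0) ≠ 0 :=
    (c2.comp (continuous_id.prodMk continuous_const)).continuousAt.eventually_ne (by
      have := ft3_zero (cx u)
      simp only [cx, integral_complex_ofReal, i2] at this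
      exact this.trans_ne (by simp))
  obtain ⟨t, t1, t2⟩ := ((e.filter_mono nhdsWithin_le_nhds).and
    (self_mem_nhdsWithin (s := Ioi (0 : ℝ)))).exists
  have c3 : ContinuousOn (gam u η) Pp := (c1.comp_continuousOn (ContinuousOn.neg
    (ContinuousOn.div (by fun_prop) (by fun_prop) fun k hk => (mul_pos two_pos hk).ne'))).mul
    c2.continuousOn
  refine pos_of_ne (gam_l2 hu hη) (c3.isOpen_inter_preimage isOpen_Pp isOpen_compl_singleton)
    ⟨(t, 0), ⟨t2, mul_ne_zero ?_ t1⟩, t2⟩ fun k hk => hk.1.2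
  have := ft1_zero (cx η)
  simp only [cx, integral_complex_ofReal, i1] at this
  simpa [kap] using this.trans_ne (by simp)

end Vale.Agent.P352X.Sch

end
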