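import Vale.Agent.P352X.R.SCH.Abs

/-!
# P352X, row SCH: the measure `m3` and its symmetries
-/

noncomputable section

open MeasureTheory Filter Topology Complex Set
open scoped ComplexConjugate NNReal ENNReal

namespace Vale.Agent.P352X.Sch

open SN (Bd)

lemma exists_pos {X : Type*} [MeasurableSpace X] (m : Measure X) [SigmaFinite m] :
    ∃ f : X → ℂ, MemLp f 2 m ∧ Bd f ∧ ∀ x, f x ≠ 0 := by
  obtain ⟨g, h0, hm, hi⟩ := exists_pos_lintegral_lt_of_sigmaFinite m one_ne_zero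
  have h1 : Measurable fun x => (min (g x) 1 : ℝ) := hm.coe_nnreal_real.min measurable_const
  have h2 : ∀ x, 0 < (min (g x) 1 : ℝ) := fun x => lt_min (h0 x) one_pos
  have hb : Bd fun x => ((min (g x) 1 : ℝ) : ℂ) :=
    Bd.ofReal h1 (C := 1) fun x => by rw [abs_of_pos (h2 x)]; exact min_le_right _ _
  refine ⟨_, ?_, hb, fun x => ofReal_ne_zero.2 (h2 x).ne'⟩
  rw [memLp_two_iff_integrable_sq_norm hb.1.aestronglyMeasurable]
  have hg : Integrable (fun x => (g x : ℝ)) m :=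
    ⟨hm.coe_nnreal_real.aestronglyMeasurable, by
      simpa [HasFiniteIntegral] using hi.trans ENNReal.one_lt_top⟩
  refine hg.mono' (hb.1.norm.pow_const 2).aestronglyMeasurable (.of_forall fun x => ?_)
  rw [norm_real, Real.norm_eq_abs, Real.norm_eq_abs, abs_of_pos (h2 x), abs_of_nonneg (sq_nonneg _)]
  nlinarith [min_le_left (g x : ℝ) 1, min_le_right (g x : ℝ) 1, h2 x]

instance haar3 : (volume : Measure P3).IsAddHaarMeasure := Measure.prod.instIsAddHaarMeasure _ _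

lemma isOpen_Pp : IsOpen Pp := isOpen_lt continuous_const continuous_fst

instance : SigmaFinite m3 := by unfold m3; infer_instance

lemma m3_ac : m3 ≪ volume.restrict Pp := withDensity_absolutelyContinuous _ _

lemma ac_m3 : volume.restrict Pp ≪ m3 :=
  withDensity_absolutelyContinuous' (measurable_fst.pow_const 2).ennreal_ofReal.aemeasurable
    ((ae_restrict_mem meas_Pp).mono fun _ hk => (ENNReal.ofReal_pos.2 (pow_pos hk 2)).ne')

/-- shears -/
def sh (w : R2) : P3 ≃ᵐ P3 where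
  toFun k := (k.1, k.2 + k.1 • w)
  invFun k := (k.1, k.2 - k.1 • w)
  left_inv k := by simp
  right_inv k := by simp
  measurable_toFun := show Measurable fun k : P3 => (k.1, k.2 + k.1 • w) by fun_prop
  measurable_invFun := show Measurable fun k : P3 => (k.1, k.2 - k.1 • w) by fun_prop

@[simp] lemma sh_apply (w : R2) (k : P3) : sh w k = (k.1, k.2 + k.1 • w) := rfl

/-- dilations -/
def dl {r σ : ℝ} (hr : 0 < r) (hσ : 0 < σ) : P3 ≃ᵐ P3 where
  toFun k := (r * k.1, σ • k.2)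
  invFun k := (r⁻¹ * k.1, σ⁻¹ • k.2)
  left_inv k := by simp [hr.ne', hσ.ne']
  right_inv k := by simp [hr.ne', hσ.ne']
  measurable_toFun := show Measurable fun k : P3 => (r * k.1, σ • k.2) by fun_prop
  measurable_invFun := show Measurable fun k : P3 => (r⁻¹ * k.1, σ⁻¹ • k.2) by fun_prop

@[simp] lemma dl_apply {r σ : ℝ} (hr : 0 < r) (hσ : 0 < σ) (k : P3) :
    dl hr hσ k = (r * k.1, σ • k.2) := rfl

lemma sc_sh (w : R2) : Sc (sh w) m3 m3 1 := sc_m3_shear (h := fun p => p • w) (by fun_prop)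

lemma sc_dl {r σ : ℝ} (hr : 0 < r) (hσ : 0 < σ) : Sc (dl hr hσ) m3 m3 (r ^ 3 * σ ^ 2)⁻¹ :=
  sc_m3 hr hσ.ne'

/-- the shears and the parabolic dilations -/
def gm : R2 ⊕ Ioi (0 : ℝ) → P3 ≃ᵐ P3
  | .inl w => sh w
  | .inr l => dl (pow_pos l.2 2) l.2

/-- the Jacobians -/
def gJ : R2 ⊕ Ioi (0 : ℝ) → ℝ
  | .inl _ => 1
  | .inr l => (((l : ℝ) ^ 2) ^ 3 * (l : ℝ) ^ 2)⁻¹

lemma sc_gm : ∀ i, Sc (gm i) m3 m3 (gJ i)
  | .inl w => sc_sh w
  | .inr l => sc_dl (pow_pos l.2 2) l.2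

/-- **ergodicity** -/
theorem erg (b : P3 → ℂ) (hb : Measurable b) (h : ∀ i, (fun x => b (gm i x)) =ᵐ[m3] b) :
    ∃ c, b =ᵐ[m3] fun _ => c := by
  set G : P3 → P3 → P3 := fun y k => (y.1 ^ 2 * k.1, y.1 • (k.2 + k.1 • y.2))
  have h1 : ∀ᵐ y ∂volume.restrict Pp, ∀ᵐ k ∂volume.restrict Pp, b (G y k) = b k := by
    filter_upwards [ae_restrict_mem meas_Pp] with y hy
    refine ac_m3.ae_le ?_
    filter_upwards [(sc_sh y.2).ae_eq (h (.inr ⟨y.1, hy⟩)), h (.inl y.2)] with k h1 h2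
    exact h1.trans h2
  have hG : Measurable fun x : P3 × P3 => G x.1 x.2 := by fun_prop
  rw [Measure.ae_ae_comm (p := fun y k => b (G y k) = b k)
    (measurableSet_eq_fun (hb.comp hG) (hb.comp measurable_snd))] at h1
  have : (ae (volume.restrict Pp)).NeBot := by
    rw [ae_neBot, Ne, Measure.restrict_eq_zero]
    exact (isOpen_Pp.measure_pos _ ⟨(1, 0), show (0 : ℝ) < 1 from one_pos⟩).ne'
  obtain ⟨k0, hk, h2⟩ := ((ae_restrict_mem meas_Pp).and h1).exists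
  suffices h3 : ∀ᵐ k ∂volume.restrict Pp, b k = b k0 from ⟨b k0, m3_ac.ae_le h3⟩
  rw [ae_restrict_iff' meas_Pp, ae_iff] at h2 ⊢
  refine measure_mono_null (fun k hk' => ?_)
    (addHaar_image_eq_zero_of_differentiableOn_of_addHaar_eq_zero volume (f := fun y => G y k0)
      (Differentiable.differentiableOn (by fun_prop)) h2)
  obtain ⟨p1, p2⟩ := Classical.not_imp.1 hk'
  have q : 0 < k.1 / k0.1 := div_pos p1 hk
  have q1 := Real.sqrt_pos.2 q
  have e : G (√(k.1 / k0.1), k0.1⁻¹ • ((√(k.1 / k0.1))⁻¹ • k.2 - k0.2)) k0 = k := by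
    have : k0.1 ≠ 0 := ne_of_gt hk
    simp [G, Real.sq_sqrt q.le, this, q1.ne', -Real.sqrt_div', -smul_add]
  exact ⟨_, Classical.not_imp.2 ⟨q1, by rw [e]; exact p2⟩, e⟩

/-- **Schur's lemma** on `L²(m3)` -/
theorem schur3 {β : (P3 → ℂ) → (P3 → ℂ) → ℂ}
    (rep : ∀ f, MemLp f 2 m3 → ∃ u, MemLp u 2 m3 ∧ Measurable u ∧
      ∀ f', MemLp f' 2 m3 → β f' f = ∫ x, conj (f' x) * u x ∂m3)
    (cg : ∀ f' f f1, MemLp f' 2 m3 → MemLp f 2 m3 → f =ᵐ[m3] f1 → β f' f = β f' f1)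
    (mul : ∀ h f' f, Bd h → MemLp f' 2 m3 → MemLp f 2 m3 →
      β f' (fun x => h x * f x) = β (fun x => conj (h x) * f' x) f)
    (cov : ∀ i f' f, MemLp f' 2 m3 → MemLp f 2 m3 →
      β (fun x => f' (gm i x)) (fun x => f (gm i x)) = gJ i * β f' f) :
    ∃ c : ℂ, ∀ f' f, MemLp f' 2 m3 → MemLp f 2 m3 →
      β f' f = c * ∫ x, conj (f' x) * f x ∂m3 := by
  obtain ⟨f0, h0, h1, h2⟩ := exists_pos m3
  exact schur sc_gm erg h0 h1 h2 rep cg mul cov

end Vale.Agent.P352X.Sch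

end
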