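import Vale.Agent.P352X.R.SCH.M3
import Vale.Agent.P352X.R.KT
import Vale.Agent.P352X.Api1B

/-!
# P352X, row SCH: the vectors `Tht`, covariance and the lemma of Schur
-/

noncomputable section

open MeasureTheory Filter Topology Complex Set
open scoped ComplexConjugate

namespace Vale.Agent.P352X.Sch

open Vale.Agent.P352 Vale.Agent.P352.GF Vale.Agent.P352.BW
open SN (Bd)
open UniformSpace (Completion)

/-- the wave functions of the vectors `Tht` -/
def psi (γ : P3 → ℂ) (φ : ℝ → ℝ) (p : V) : ℂ :=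
  (mu p : ℝ) * γ (pm p) * ft1 (cx φ) (mu p / (2 * be p))

/-- finite norm -/
def Fn1 (φ : ℝ → ℝ) : Prop :=
  MemLp (fun t : ℝ => (t : ℂ) * ft1 (cx φ) t) 2 (volume.restrict (Ioi 0))

lemma psi_l2 {γ : P3 → ℂ} {φ : ℝ → ℝ} (hγ : MemLp γ 2 m3) (hφ : Fn1 φ) :
    MemLp (psi γ φ) 2 (volume.restrict Fc) := memLp_Tht hγ hφ

lemma ft1_dil' {s : ℝ} (hs : 0 < s) (φ : ℝ → ℝ) (k : ℝ) :
    ft1 (cx (dil s φ)) k = s * ft1 (cx φ) (s * k) := by
  have h := Measure.integral_comp_div (fun t : ℝ => cx φ t * cexp (I * (t * (s * k) : ℝ))) s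
  rw [abs_of_pos hs, real_smul] at h
  rw [ft1, ft1, ← h]
  refine integral_congr_ae (.of_forall fun t => ?_)
  simp only [cx, dil]
  congr 4
  field_simp

lemma integral_sq {X : Type*} [MeasurableSpace X] (m : Measure X) (f : X → ℂ) :
    ∫ x, conj (f x) * f x ∂m = ((∫ x, ‖f x‖ ^ 2 ∂m : ℝ) : ℂ) := by
  simp only [SN.conj_mul_self]
  exact integral_ofReal

variable {D : Type*} [NormedAddCommGroup D] [InnerProductSpace ℂ D] {c : Ctx D}
  {ell : (V → ℂ) → Completion D} {c0 : ℝ} {γ γ' : P3 → ℂ} {φ φ' : ℝ → ℝ}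

lemma Tht_eq (γ : P3 → ℂ) (φ : ℝ → ℝ) : Tht ell γ φ = (-3 : ℂ) • ell (psi γ φ) := rfl

lemma bl_of_inner {X : Type*} [MeasurableSpace X] {m : Measure X} {T : (X → ℂ) → Completion D}
    {a : ℂ} (lin : ∀ f g (a : ℂ), MemLp f 2 m → MemLp g 2 m →
      T (fun x => f x + a * g x) = T f + a • T g)
    (h : ∀ f, MemLp f 2 m → inner ℂ (T f) (T f) = a * ∫ x, conj (f x) * f x ∂m) : BL m T := by
  refine ⟨lin, ‖a‖, fun f hf => le_of_eq ?_⟩
  have h1 := congrArg norm (h f hf)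
  rwa [inner_self_eq_norm_sq_to_K, norm_pow, RCLike.norm_ofReal, abs_norm, integral_sq, norm_mul,
    norm_real, Real.norm_of_nonneg (integral_nonneg fun _ => sq_nonneg _)] at h1

lemma bl_ell (he : Ell c ell c0) : BL (volume.restrict Fc) ell :=
  bl_of_inner he.lin fun f hf => he.inn f f hf hf

/-- the scalar products of the profiles -/
def nT (c0 : ℝ) (φ' φ : ℝ → ℝ) : ℂ :=
  9 * c0 * ∫ t in Ioi (0 : ℝ), 4 * (t : ℂ) ^ 2 * (conj (ft1 (cx φ') t) * ft1 (cx φ) t)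

lemma inner_Tht (he : Ell c ell c0) (hγ' : MemLp γ' 2 m3) (hφ' : Fn1 φ') (hγ : MemLp γ 2 m3)
    (hφ : Fn1 φ) : inner ℂ (Tht ell γ' φ') (Tht ell γ φ) =
      nT c0 φ' φ * ∫ k, conj (γ' k) * γ k ∂m3 := by
  have h := integral_Tht (fun k => conj (γ' k) * γ k)
    fun t => conj (ft1 (cx φ') t) * ft1 (cx φ) t
  rw [Tht_eq, Tht_eq, inner_smul_left, inner_smul_right, he.inn _ _ (psi_l2 hγ' hφ') (psi_l2 hγ hφ),
    integral_congr_ae (.of_forall fun p => ?_), h, nT]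
  · simp only [map_neg, map_ofNat]
    ring
  · simp only [psi, map_mul, conj_ofReal]
    ring

lemma bl_Tht (he : Ell c ell c0) (hφ : Fn1 φ) : BL m3 fun γ => Tht ell γ φ := by
  refine bl_of_inner (fun f g a hf hg => ?_) fun f hf => inner_Tht he hf hφ hf hφ
  rw [Tht_eq, Tht_eq, Tht_eq, smul_comm a, ← smul_add, ← he.lin _ _ a (psi_l2 hf hφ) (psi_l2 hg hφ)]
  congr 2
  funext p
  simp only [psi]
  ring

lemma Tht_phi (he : Ell c ell c0) {h : P3 → ℂ} (hh : Bd h) (hγ : MemLp γ 2 m3) (hφ : Fn1 φ) :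
    c.bt.Phi (fun p => h (pm p)) (Tht ell γ φ) = Tht ell (fun k => h k * γ k) φ := by
  rw [Tht_eq, Tht_eq, map_smul, he.phi _ _ (hh.comp meas_pm) (psi_l2 hγ hφ)]
  congr 2
  funext p
  simp only [psi]
  ring

lemma Tht_ga (g : GRP c) (he : Ell c ell c0) (w : R2) (hγ : MemLp γ 2 m3) (hφ : Fn1 φ) :
    Ga c.Q w (Tht ell (fun k => γ (sh w k)) φ) = Tht ell γ φ := by
  rw [Tht_eq, Tht_eq, map_smul, Ga, he.cov 1 _ 0 _ (psi γ φ) one_pos (g.lga w).1
    (psi_l2 ((sc_sh w).memLp.2 hγ) hφ) fun p => ?_]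
  rw [(g.lga w).2]
  simp [psi, pm, mu, md_gap]

lemma Tht_sc (g : GRP c) (he : Ell c ell c0) {r s σ : ℝ} (hr : 0 < r) (hs : 0 < s) (hσ : 0 < σ)
    (e : σ ^ 2 = r * s) (hγ : MemLp γ 2 m3) (hφ : Fn1 φ) (hφ' : Fn1 (dil s φ)) :
    Usc c.Q r s (Tht ell γ φ) =
      ((r ^ 2 * s : ℝ) : ℂ) • Tht ell (fun k => γ (dl hr hσ k)) (dil s φ) := by
  have e' : √(r * s) = σ := by rw [← e, Real.sqrt_sq hσ.le]
  rw [Tht_eq, Tht_eq, map_smul, smul_comm,
    ← (bl_ell he).smul _ (psi_l2 ((sc_dl hr hσ).memLp.2 hγ) hφ'), Usc,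
    he.cov _ _ 0 _ _ (Br.sc_pos hr hs) (g.lsc r s hr hs).1 (psi_l2 hγ hφ) fun p => ?_]
  have h := (g.lsc r s hr hs).2 p
  have hm := mu_lor p (g.lsc r s hr hs).1
  rw [sim_smul, e'] at h
  generalize sim 1 (H755.bst va vb (√(r / s) - 1) (√(s / r) - 1)) 0 p = q at h hm ⊢
  have h1 : be (σ • p) = r * be q := by
    have := congrArg be h
    rw [be_smul, be_scp] at this
    rw [be_smul]
    refine mul_left_cancel₀ hs.ne' (mul_left_cancel₀ hσ.ne' ?_)
    linear_combination (be p * s) * e - (r * s) * this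
  have h2 : tx (σ • p) = σ • tx q := by
    have := congrArg tx h
    rw [tx_smul, tx_scp, e'] at this
    rw [tx_smul, this]
  have h3 : mu (σ • p) = r * s * mu q := by rw [mu_smul, e, hm]
  simp only [psi, pm, e', h1, h2, h3, e, ft1_dil' hs, dl_apply, md_zero, ofReal_zero, mul_zero,
    Complex.exp_zero, mul_one]
  rw [show r * s * mu q / (2 * (r * be q)) = s * (mu q / (2 * be q)) by field_simp]
  push_cast
  ring

variable (c) in
/-- operators that commute with the translations in the null plane, the null rotations and the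
parabolic scalings -/
structure Cm (S : Completion D →L[ℂ] Completion D) : Prop where
  ut : ∀ y, be y = 0 → Ut c.Q y * S = S * Ut c.Q y
  ga : ∀ w, Ga c.Q w * S = S * Ga c.Q w
  sc : ∀ r, 0 < r → Usc c.Q r 1 * S = S * Usc c.Q r 1

lemma cm_Sk (t : ℝ) : Cm c (c.Sk t) :=
  ⟨(kt_thm c).ut t, (kt_thm c).ga t, fun r hr => by
    simpa only [div_one] using (kt_thm c).sc r 1 t hr one_pos⟩

lemma Cm.phi {S : Completion D →L[ℂ] Completion D} (hS : Cm c S) {h : P3 → ℂ} (hh : Bd h)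
    (v : Completion D) :
    S (c.bt.Phi (fun p => h (pm p)) v) = c.bt.Phi (fun p => h (pm p)) (S v) :=
  (c.bt.restrict pr3 meas_pm (fun y : P3 => pt y.1 0 (-y.2)) fun p y => by
    simp [pr3, mdot_null, d2_neg]).commute Br.isPair_pr3 S
    (fun y => (congrArg (· v) (hS.ut _ (be_pt _ _ _))).symm) hh

lemma dil_one (φ : ℝ → ℝ) : dil 1 φ = φ := funext fun t => by rw [dil, div_one]

/-- **Schur's lemma** for the vectors `Tht` -/
theorem schur_Tht (g : GRP c) (he : Ell c ell c0) {S : Completion D →L[ℂ] Completion D}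
    (hS : Cm c S) (hφ' : Fn1 φ') (hφ : Fn1 φ) : ∃ κ : ℂ, ∀ γ' γ, MemLp γ' 2 m3 → MemLp γ 2 m3 →
      inner ℂ (Tht ell γ' φ') (S (Tht ell γ φ)) = κ * ∫ k, conj (γ' k) * γ k ∂m3 := by
  refine schur3 (β := fun γ' γ => inner ℂ (Tht ell γ' φ') (S (Tht ell γ φ)))
    (fun f _ => (bl_Tht he hφ').riesz _)
    (fun f' f f1 _ hf e => by rw [(bl_Tht he hφ).congr hf e]) (fun h f' f hh hf' hf => ?_) ?_
  · rw [← Tht_phi he hh hf hφ, hS.phi hh, c.bt.adj' (hh.comp meas_pm), Tht_phi he hh.cj hf' hφ']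
  rintro (w | l) f' f hf' hf
  · rw [← inner_unitary (A := Ga c.Q w) (g.uni _ _ _), ← mul_apply_eq_comp, hS.ga, mul_apply_eq_comp]
    simp only [gm, gJ, Tht_ga g he w hf' hφ', Tht_ga g he w hf hφ, ofReal_one, one_mul]
  · have l0 : (0 : ℝ) < l := l.2
    have h1 := Tht_sc g he (pow_pos l0 2) one_pos l0 (mul_one _).symm hf hφ (by rwa [dil_one])
    have h2 := Tht_sc g he (pow_pos l0 2) one_pos l0 (mul_one _).symm hf' hφ' (by rwa [dil_one])
    rw [← inner_unitary (A := Usc c.Q (l ^ 2) 1) (g.uni _ _ _) (Tht ell f' φ'),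
      ← mul_apply_eq_comp, hS.sc _ (pow_pos l0 2), mul_apply_eq_comp, h1, h2, map_smul, inner_smul_left,
      inner_smul_right, dil_one, dil_one, conj_ofReal]
    have : (l : ℂ) ≠ 0 := ofReal_ne_zero.2 l0.ne'
    simp only [gm, gJ]
    push_cast
    field_simp

end Vale.Agent.P352X.Sch

end
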